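import Vale.Agent.P154.R4.X4.X4T
import Vale.Agent.P154.R4.SmM
import Vale.Agent.P154.R4.Mult

namespace Vale.Agent.P154

set_option maxRecDepth 1000000
set_option maxHeartbeats 4000000

open Finset

def x4CsL0 : P4 := [[[[Int.negSucc 47185919,Int.negSucc 11796479,5898240],[Int.negSucc 11796479],[5898240]],[[Int.negSucc 11796479]],[[5898240]]],[[[Int.negSucc 11796479]]],[[[5898240]]]]

theorem x4_cs0 (a : Fin 4 → ℝ) :
    sm 7 x4Xs0 (1 + a 0) (1 + a 1) (1 + a 2) (1 + a 3) 4 = 70778880 * (alQ a - 1) := by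
  have h := ev4_smM (1 + a 0) (1 + a 1) (1 + a 2) (1 + a 3) 7 1 4 x4Xs0
  simp only [Int.cast_one, one_mul, Int.cast_ofNat] at h
  rw [← h, ← ev4_eq_of_zr _ _ _ _ x4CsL0 (smM 7 1 4 x4Xs0) (by decide +kernel)]
  simp only [x4CsL0, ev4, ev3, ev2, ev1, evL, psK, alQ, pMQ, c1Q, c2Q, mulF, m3Q, s4Q, Fin.sum_univ_four]
  push_cast
  ring

def x4CtL0 : P4 := [[[[7255941120000000]]]]

theorem x4_ct0 (b : Fin 4 → ℝ) :
    sm 7 x4Xt0 (30 * (1 + b 0)) (30 * (1 + b 1)) (30 * (1 + b 2)) (30 * (1 + b 3)) 12 = 7255941120000000 * (1) := by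
  have h := ev4_smM (1 + b 0) (1 + b 1) (1 + b 2) (1 + b 3) 7 30 12 x4Xt0
  simp only [Int.cast_ofNat] at h
  rw [← h, ← ev4_eq_of_zr _ _ _ _ x4CtL0 (smM 7 30 12 x4Xt0) (by decide +kernel)]
  simp only [x4CtL0, ev4, ev3, ev2, ev1, evL, psK, alQ, pMQ, c1Q, c2Q, mulF, m3Q, s4Q, Fin.sum_univ_four]
  push_cast
  ring

def x4CsL1 : P4 := [[[[70778880]]]]

theorem x4_cs1 (a : Fin 4 → ℝ) :
    sm 7 x4Xs1 (1 + a 0) (1 + a 1) (1 + a 2) (1 + a 3) 4 = 70778880 * (1) := by
  have h := ev4_smM (1 + a 0) (1 + a 1) (1 + a 2) (1 + a 3) 7 1 4 x4Xs1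
  simp only [Int.cast_one, one_mul, Int.cast_ofNat] at h
  rw [← h, ← ev4_eq_of_zr _ _ _ _ x4CsL1 (smM 7 1 4 x4Xs1) (by decide +kernel)]
  simp only [x4CsL1, ev4, ev3, ev2, ev1, evL, psK, alQ, pMQ, c1Q, c2Q, mulF, m3Q, s4Q, Fin.sum_univ_four]
  push_cast
  ring

def x4CtL1 : P4 := [[[[2418647040000000,Int.negSucc 1209323519999999,604661760000000],[Int.negSucc 1209323519999999],[604661760000000]],[[Int.negSucc 1209323519999999]],[[604661760000000]]],[[[Int.negSucc 1209323519999999]]],[[[604661760000000]]]]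

theorem x4_ct1 (b : Fin 4 → ℝ) :
    sm 7 x4Xt1 (30 * (1 + b 0)) (30 * (1 + b 1)) (30 * (1 + b 2)) (30 * (1 + b 3)) 12 = 7255941120000000 * (alQ b) := by
  have h := ev4_smM (1 + b 0) (1 + b 1) (1 + b 2) (1 + b 3) 7 30 12 x4Xt1
  simp only [Int.cast_ofNat] at h
  rw [← h, ← ev4_eq_of_zr _ _ _ _ x4CtL1 (smM 7 30 12 x4Xt1) (by decide +kernel)]
  simp only [x4CtL1, ev4, ev3, ev2, ev1, evL, psK, alQ, pMQ, c1Q, c2Q, mulF, m3Q, s4Q, Fin.sum_univ_four]
  push_cast
  ring

def x4CsL2 : P4 := [[[[37355520,Int.negSucc 31457279,28016640,Int.negSucc 9338879,860160],[Int.negSucc 31457279,6881280,Int.negSucc 3440639],[28016640,Int.negSucc 3440639,1720320],[Int.negSucc 9338879],[860160]],[[Int.negSucc 31457279,6881280,Int.negSucc 3440639],[6881280],[Int.negSucc 3440639]],[[28016640,Int.negSucc 3440639,1720320],[Int.negSucc 3440639],[1720320]],[[Int.negSucc 9338879]],[[860160]]],[[[Int.negSucc 31457279,6881280,Int.negSucc 3440639],[6881280],[Int.negSucc 3440639]],[[6881280]],[[Int.negSucc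 3440639]]],[[[28016640,Int.negSucc 3440639,1720320],[Int.negSucc 3440639],[1720320]],[[Int.negSucc 3440639]],[[1720320]]],[[[Int.negSucc 9338879]]],[[[860160]]]]

theorem x4_cs2 (a : Fin 4 → ℝ) :
    sm 7 x4Xs2 (1 + a 0) (1 + a 1) (1 + a 2) (1 + a 3) 4 = 70778880 * (-psK (7 / 4) a) := by
  have h := ev4_smM (1 + a 0) (1 + a 1) (1 + a 2) (1 + a 3) 7 1 4 x4Xs2
  simp only [Int.cast_one, one_mul, Int.cast_ofNat] at h
  rw [← h, ← ev4_eq_of_zr _ _ _ _ x4CsL2 (smM 7 1 4 x4Xs2) (by decide +kernel)]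
  simp only [x4CsL2, ev4, ev3, ev2, ev1, evL, psK, alQ, pMQ, c1Q, c2Q, mulF, m3Q, s4Q, Fin.sum_univ_four]
  push_cast
  ring

def x4CtL2 : P4 := [[[[4232632320000000,Int.negSucc 1360488959999999,Int.negSucc 1813985279999999,2645395200000000,Int.negSucc 831409919999999,75582720000000],[Int.negSucc 1360488959999999,302330880000000,75582720000000,Int.negSucc 151165439999999],[Int.negSucc 1813985279999999,75582720000000,Int.negSucc 151165439999999,75582720000000],[2645395200000000,Int.negSucc 151165439999999,75582720000000],[Int.negSucc 831409919999999],[75582720000000]],[[Int.negSucc 1360488959999999,302330880000000,75582720000000,Int.negSucc 151165439999999],[302330880000000],[75582720000000],[Int.negSucc 151165439999999]],[[Int.negSucc 1813985279999999,75582720000000,Int.negSucc 151165439999999,75582720000000],[75582720000000],[Int.negSucc 151165439999999],[75582720000000]],[[2645395200000000,Int.negSucc 151165439999999,75582720000000],[Int.negSucc 151165439999999],[75582720000000]],[[Int.negSucc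 831409919999999]],[[75582720000000]]],[[[Int.negSucc 1360488959999999,302330880000000,75582720000000,Int.negSucc 151165439999999],[302330880000000],[75582720000000],[Int.negSucc 151165439999999]],[[302330880000000]],[[75582720000000]],[[Int.negSucc 151165439999999]]],[[[Int.negSucc 1813985279999999,75582720000000,Int.negSucc 151165439999999,75582720000000],[75582720000000],[Int.negSucc 151165439999999],[75582720000000]],[[75582720000000]],[[Int.negSucc 151165439999999]],[[75582720000000]]],[[[2645395200000000,Int.negSucc 151165439999999,75582720000000],[Int.negSucc 151165439999999],[75582720000000]],[[Int.negSucc 151165439999999]],[[75582720000000]]],[[[Int.negSucc 831409919999999]]],[[[75582720000000]]]]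

theorem x4_ct2 (b : Fin 4 → ℝ) :
    sm 7 x4Xt2 (30 * (1 + b 0)) (30 * (1 + b 1)) (30 * (1 + b 2)) (30 * (1 + b 3)) 12 = 7255941120000000 * (pMQ b) := by
  have h := ev4_smM (1 + b 0) (1 + b 1) (1 + b 2) (1 + b 3) 7 30 12 x4Xt2
  simp only [Int.cast_ofNat] at h
  rw [← h, ← ev4_eq_of_zr _ _ _ _ x4CtL2 (smM 7 30 12 x4Xt2) (by decide +kernel)]
  simp only [x4CtL2, ev4, ev3, ev2, ev1, evL, psK, alQ, pMQ, c1Q, c2Q, mulF, m3Q, s4Q, Fin.sum_univ_four]
  push_cast
  ring

def x4CsL3 : P4 := [[[[Int.negSucc 41287679,13271040,17694720,Int.negSucc 25804799,8110080,Int.negSucc 737279],[13271040,Int.negSucc 2949119,Int.negSucc 737279,1474560],[17694720,Int.negSucc 737279,1474560,Int.negSucc 737279],[Int.negSucc 25804799,1474560,Int.negSucc 737279],[8110080],[Int.negSucc 737279]],[[13271040,Int.negSucc 2949119,Int.negSucc 737279,1474560],[Int.negSucc 2949119],[Int.negSucc 737279],[1474560]],[[17694720,Int.negSucc 737279,1474560,Int.negSucc 737279],[Int.negSucc 737279],[1474560],[Int.negSucc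 737279]],[[Int.negSucc 25804799,1474560,Int.negSucc 737279],[1474560],[Int.negSucc 737279]],[[8110080]],[[Int.negSucc 737279]]],[[[13271040,Int.negSucc 2949119,Int.negSucc 737279,1474560],[Int.negSucc 2949119],[Int.negSucc 737279],[1474560]],[[Int.negSucc 2949119]],[[Int.negSucc 737279]],[[1474560]]],[[[17694720,Int.negSucc 737279,1474560,Int.negSucc 737279],[Int.negSucc 737279],[1474560],[Int.negSucc 737279]],[[Int.negSucc 737279]],[[1474560]],[[Int.negSucc 737279]]],[[[Int.negSucc 25804799,1474560,Int.negSucc 737279],[1474560],[Int.negSucc 737279]],[[1474560]],[[Int.negSucc 737279]]],[[[8110080]]],[[[Int.negSucc 737279]]]]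

theorem x4_cs3 (a : Fin 4 → ℝ) :
    sm 7 x4Xs3 (1 + a 0) (1 + a 1) (1 + a 2) (1 + a 3) 4 = 70778880 * (-pMQ a) := by
  have h := ev4_smM (1 + a 0) (1 + a 1) (1 + a 2) (1 + a 3) 7 1 4 x4Xs3
  simp only [Int.cast_one, one_mul, Int.cast_ofNat] at h
  rw [← h, ← ev4_eq_of_zr _ _ _ _ x4CsL3 (smM 7 1 4 x4Xs3) (by decide +kernel)]
  simp only [x4CsL3, ev4, ev3, ev2, ev1, evL, psK, alQ, pMQ, c1Q, c2Q, mulF, m3Q, s4Q, Fin.sum_univ_four]
  push_cast
  ring

def x4CtL3 : P4 := [[[[Int.negSucc 4770109439999999,4165447680000000,Int.negSucc 3577582079999999,1192527360000000,Int.negSucc 146966399999999],[4165447680000000,Int.negSucc 1175731199999999,587865600000000],[Int.negSucc 3577582079999999,587865600000000,Int.negSucc 293932799999999],[1192527360000000],[Int.negSucc 146966399999999]],[[4165447680000000,Int.negSucc 1175731199999999,587865600000000],[Int.negSucc 1175731199999999],[587865600000000]],[[Int.negSucc 3577582079999999,587865600000000,Int.negSucc 293932799999999],[587865600000000],[Int.negSucc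 293932799999999]],[[1192527360000000]],[[Int.negSucc 146966399999999]]],[[[4165447680000000,Int.negSucc 1175731199999999,587865600000000],[Int.negSucc 1175731199999999],[587865600000000]],[[Int.negSucc 1175731199999999]],[[587865600000000]]],[[[Int.negSucc 3577582079999999,587865600000000,Int.negSucc 293932799999999],[587865600000000],[Int.negSucc 293932799999999]],[[587865600000000]],[[Int.negSucc 293932799999999]]],[[[1192527360000000]]],[[[Int.negSucc 146966399999999]]]]

theorem x4_ct3 (b : Fin 4 → ℝ) :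
    sm 7 x4Xt3 (30 * (1 + b 0)) (30 * (1 + b 1)) (30 * (1 + b 2)) (30 * (1 + b 3)) 12 = 7255941120000000 * (psK (35 / 12) b) := by
  have h := ev4_smM (1 + b 0) (1 + b 1) (1 + b 2) (1 + b 3) 7 30 12 x4Xt3
  simp only [Int.cast_ofNat] at h
  rw [← h, ← ev4_eq_of_zr _ _ _ _ x4CtL3 (smM 7 30 12 x4Xt3) (by decide +kernel)]
  simp only [x4CtL3, ev4, ev3, ev2, ev1, evL, psK, alQ, pMQ, c1Q, c2Q, mulF, m3Q, s4Q, Fin.sum_univ_four]
  push_cast
  ring

def x4CsL4 : P4 := [[[[Int.negSucc 393215,393216,Int.negSucc 294911,98304,Int.negSucc 24575],[393216,Int.negSucc 196607,98304],[Int.negSucc 294911,98304,Int.negSucc 49151],[98304],[Int.negSucc 24575]],[[393216,Int.negSucc 196607,98304],[Int.negSucc 196607],[98304]],[[Int.negSucc 294911,98304,Int.negSucc 49151],[98304],[Int.negSucc 49151]],[[98304]],[[Int.negSucc 24575]]],[[[393216,Int.negSucc 196607,98304],[Int.negSucc 196607],[98304]],[[Int.negSucc 196607]],[[98304]]],[[[Int.negSucc 294911,98304,Int.negSucc 49151],[98304],[Int.negSucc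 49151]],[[98304]],[[Int.negSucc 49151]]],[[[98304]]],[[[Int.negSucc 24575]]]]

theorem x4_cs4 (a : Fin 4 → ℝ) :
    sm 7 x4Xs4 (1 + a 0) (1 + a 1) (1 + a 2) (1 + a 3) 4 = 70778880 * (-(1 / 20) * (alQ a) ^ 2) := by
  have h := ev4_smM (1 + a 0) (1 + a 1) (1 + a 2) (1 + a 3) 7 1 4 x4Xs4
  simp only [Int.cast_one, one_mul, Int.cast_ofNat] at h
  rw [← h, ← ev4_eq_of_zr _ _ _ _ x4CsL4 (smM 7 1 4 x4Xs4) (by decide +kernel)]
  simp only [x4CsL4, ev4, ev3, ev2, ev1, evL, psK, alQ, pMQ, c1Q, c2Q, mulF, m3Q, s4Q, Fin.sum_univ_four]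
  push_cast
  ring

def x4CtL4 : P4 := [[[[2418647040000000,Int.negSucc 1209323519999999,604661760000000],[Int.negSucc 1209323519999999],[604661760000000]],[[Int.negSucc 1209323519999999]],[[604661760000000]]],[[[Int.negSucc 1209323519999999]]],[[[604661760000000]]]]

theorem x4_ct4 (b : Fin 4 → ℝ) :
    sm 7 x4Xt4 (30 * (1 + b 0)) (30 * (1 + b 1)) (30 * (1 + b 2)) (30 * (1 + b 3)) 12 = 7255941120000000 * (alQ b) := by
  have h := ev4_smM (1 + b 0) (1 + b 1) (1 + b 2) (1 + b 3) 7 30 12 x4Xt4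
  simp only [Int.cast_ofNat] at h
  rw [← h, ← ev4_eq_of_zr _ _ _ _ x4CtL4 (smM 7 30 12 x4Xt4) (by decide +kernel)]
  simp only [x4CtL4, ev4, ev3, ev2, ev1, evL, psK, alQ, pMQ, c1Q, c2Q, mulF, m3Q, s4Q, Fin.sum_univ_four]
  push_cast
  ring

def x4CsL5 : P4 := [[[[Int.negSucc 1179647,589824,Int.negSucc 294911],[589824],[Int.negSucc 294911]],[[589824]],[[Int.negSucc 294911]]],[[[589824]]],[[[Int.negSucc 294911]]]]

theorem x4_cs5 (a : Fin 4 → ℝ) :
    sm 7 x4Xs5 (1 + a 0) (1 + a 1) (1 + a 2) (1 + a 3) 4 = 70778880 * (-(1 / 20) * alQ a) := by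
  have h := ev4_smM (1 + a 0) (1 + a 1) (1 + a 2) (1 + a 3) 7 1 4 x4Xs5
  simp only [Int.cast_one, one_mul, Int.cast_ofNat] at h
  rw [← h, ← ev4_eq_of_zr _ _ _ _ x4CsL5 (smM 7 1 4 x4Xs5) (by decide +kernel)]
  simp only [x4CsL5, ev4, ev3, ev2, ev1, evL, psK, alQ, pMQ, c1Q, c2Q, mulF, m3Q, s4Q, Fin.sum_univ_four]
  push_cast
  ring

def x4CtL5 : P4 := [[[[806215680000000,Int.negSucc 806215679999999,604661760000000,Int.negSucc 201553919999999,50388480000000],[Int.negSucc 806215679999999,403107840000000,Int.negSucc 201553919999999],[604661760000000,Int.negSucc 201553919999999,100776960000000],[Int.negSucc 201553919999999],[50388480000000]],[[Int.negSucc 806215679999999,403107840000000,Int.negSucc 201553919999999],[403107840000000],[Int.negSucc 201553919999999]],[[604661760000000,Int.negSucc 201553919999999,100776960000000],[Int.negSucc 201553919999999],[100776960000000]],[[Int.negSucc 201553919999999]],[[50388480000000]]],[[[Int.negSucc 806215679999999,403107840000000,Int.negSucc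 201553919999999],[403107840000000],[Int.negSucc 201553919999999]],[[403107840000000]],[[Int.negSucc 201553919999999]]],[[[604661760000000,Int.negSucc 201553919999999,100776960000000],[Int.negSucc 201553919999999],[100776960000000]],[[Int.negSucc 201553919999999]],[[100776960000000]]],[[[Int.negSucc 201553919999999]]],[[[50388480000000]]]]

theorem x4_ct5 (b : Fin 4 → ℝ) :
    sm 7 x4Xt5 (30 * (1 + b 0)) (30 * (1 + b 1)) (30 * (1 + b 2)) (30 * (1 + b 3)) 12 = 7255941120000000 * ((alQ b) ^ 2) := by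
  have h := ev4_smM (1 + b 0) (1 + b 1) (1 + b 2) (1 + b 3) 7 30 12 x4Xt5
  simp only [Int.cast_ofNat] at h
  rw [← h, ← ev4_eq_of_zr _ _ _ _ x4CtL5 (smM 7 30 12 x4Xt5) (by decide +kernel)]
  simp only [x4CtL5, ev4, ev3, ev2, ev1, evL, psK, alQ, pMQ, c1Q, c2Q, mulF, m3Q, s4Q, Fin.sum_univ_four]
  push_cast
  ring

end Vale.Agent.P154
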