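import Vale.Agent.P154.R4.X4.X4T
import Vale.Agent.P154.R4.SmM

namespace Vale.Agent.P154

set_option maxRecDepth 1000000
set_option maxHeartbeats 4000000

def x4Zt : P4 := lin4 1 1 1 1 (-1)

theorem x4Zt_ev (u0 u1 u2 u3 : ℝ) : ev4 u0 u1 u2 u3 x4Zt = u0 + u1 + u2 + u3 - 1 := by
  rw [x4Zt, ev4_lin]; push_cast; ring

def x4ZP0 : P4 := [[[[1]]]]

theorem x4ZP0_ev (u0 u1 u2 u3 : ℝ) : ev4 u0 u1 u2 u3 x4ZP0 = ev4 u0 u1 u2 u3 x4Zt ^ 0 := by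
  simp [x4ZP0, ev4, ev3, ev2, ev1, evL]

def x4ZP1 : P4 := [[[[Int.negSucc 0,1],[1]],[[1]]],[[[1]]]]

theorem x4ZP1_ev (u0 u1 u2 u3 : ℝ) : ev4 u0 u1 u2 u3 x4ZP1 = ev4 u0 u1 u2 u3 x4Zt ^ 1 := by
  rw [ev4_eq_of_zr u0 u1 u2 u3 x4ZP1 (mul4 x4ZP0 x4Zt) (by decide +kernel), ev4_mul, x4ZP0_ev]; ring

def x4ZP2 : P4 := [[[[1,Int.negSucc 1,1],[Int.negSucc 1,2],[1]],[[Int.negSucc 1,2],[2]],[[1]]],[[[Int.negSucc 1,2],[2]],[[2]]],[[[1]]]]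

theorem x4ZP2_ev (u0 u1 u2 u3 : ℝ) : ev4 u0 u1 u2 u3 x4ZP2 = ev4 u0 u1 u2 u3 x4Zt ^ 2 := by
  rw [ev4_eq_of_zr u0 u1 u2 u3 x4ZP2 (mul4 x4ZP1 x4Zt) (by decide +kernel), ev4_mul, x4ZP1_ev]; ring

def x4ZP3 : P4 := [[[[Int.negSucc 0,3,Int.negSucc 2,1],[3,Int.negSucc 5,3],[Int.negSucc 2,3],[1]],[[3,Int.negSucc 5,3],[Int.negSucc 5,6],[3]],[[Int.negSucc 2,3],[3]],[[1]]],[[[3,Int.negSucc 5,3],[Int.negSucc 5,6],[3]],[[Int.negSucc 5,6],[6]],[[3]]],[[[Int.negSucc 2,3],[3]],[[3]]],[[[1]]]]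

theorem x4ZP3_ev (u0 u1 u2 u3 : ℝ) : ev4 u0 u1 u2 u3 x4ZP3 = ev4 u0 u1 u2 u3 x4Zt ^ 3 := by
  rw [ev4_eq_of_zr u0 u1 u2 u3 x4ZP3 (mul4 x4ZP2 x4Zt) (by decide +kernel), ev4_mul, x4ZP2_ev]; ring

def x4ZP4 : P4 := [[[[1,Int.negSucc 3,6,Int.negSucc 3,1],[Int.negSucc 3,12,Int.negSucc 11,4],[6,Int.negSucc 11,6],[Int.negSucc 3,4],[1]],[[Int.negSucc 3,12,Int.negSucc 11,4],[12,Int.negSucc 23,12],[Int.negSucc 11,12],[4]],[[6,Int.negSucc 11,6],[Int.negSucc 11,12],[6]],[[Int.negSucc 3,4],[4]],[[1]]],[[[Int.negSucc 3,12,Int.negSucc 11,4],[12,Int.negSucc 23,12],[Int.negSucc 11,12],[4]],[[12,Int.negSucc 23,12],[Int.negSucc 23,24],[12]],[[Int.negSucc 11,12],[12]],[[4]]],[[[6,Int.negSucc 11,6],[Int.negSucc 11,12],[6]],[[Int.negSucc 11,12],[12]],[[6]]],[[[Int.negSucc 3,4],[4]],[[4]]],[[[1]]]]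

theorem x4ZP4_ev (u0 u1 u2 u3 : ℝ) : ev4 u0 u1 u2 u3 x4ZP4 = ev4 u0 u1 u2 u3 x4Zt ^ 4 := by
  rw [ev4_eq_of_zr u0 u1 u2 u3 x4ZP4 (mul4 x4ZP3 x4Zt) (by decide +kernel), ev4_mul, x4ZP3_ev]; ring

def x4ZP5 : P4 := [[[[Int.negSucc 0,5,Int.negSucc 9,10,Int.negSucc 4,1],[5,Int.negSucc 19,30,Int.negSucc 19,5],[Int.negSucc 9,30,Int.negSucc 29,10],[10,Int.negSucc 19,10],[Int.negSucc 4,5],[1]],[[5,Int.negSucc 19,30,Int.negSucc 19,5],[Int.negSucc 19,60,Int.negSucc 59,20],[30,Int.negSucc 59,30],[Int.negSucc 19,20],[5]],[[Int.negSucc 9,30,Int.negSucc 29,10],[30,Int.negSucc 59,30],[Int.negSucc 29,30],[10]],[[10,Int.negSucc 19,10],[Int.negSucc 19,20],[10]],[[Int.negSucc 4,5],[5]],[[1]]],[[[5,Int.negSucc 19,30,Int.negSucc 19,5],[Int.negSucc 19,60,Int.negSucc 59,20],[30,Int.negSucc 59,30],[Int.negSucc 19,20],[5]],[[Int.negSucc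 19,60,Int.negSucc 59,20],[60,Int.negSucc 119,60],[Int.negSucc 59,60],[20]],[[30,Int.negSucc 59,30],[Int.negSucc 59,60],[30]],[[Int.negSucc 19,20],[20]],[[5]]],[[[Int.negSucc 9,30,Int.negSucc 29,10],[30,Int.negSucc 59,30],[Int.negSucc 29,30],[10]],[[30,Int.negSucc 59,30],[Int.negSucc 59,60],[30]],[[Int.negSucc 29,30],[30]],[[10]]],[[[10,Int.negSucc 19,10],[Int.negSucc 19,20],[10]],[[Int.negSucc 19,20],[20]],[[10]]],[[[Int.negSucc 4,5],[5]],[[5]]],[[[1]]]]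

theorem x4ZP5_ev (u0 u1 u2 u3 : ℝ) : ev4 u0 u1 u2 u3 x4ZP5 = ev4 u0 u1 u2 u3 x4Zt ^ 5 := by
  rw [ev4_eq_of_zr u0 u1 u2 u3 x4ZP5 (mul4 x4ZP4 x4Zt) (by decide +kernel), ev4_mul, x4ZP4_ev]; ring

def x4R1 : List ℤ := [4,Int.negSucc 3,4,Int.negSucc 3,3,Int.negSucc 0]

def x4R1N : P4 := [[[[20,Int.negSucc 40,44,Int.negSucc 25,8,Int.negSucc 0],[Int.negSucc 40,88,Int.negSucc 77,32,Int.negSucc 4],[44,Int.negSucc 77,48,Int.negSucc 9],[Int.negSucc 25,32,Int.negSucc 9],[8,Int.negSucc 4],[Int.negSucc 0]],[[Int.negSucc 40,88,Int.negSucc 77,32,Int.negSucc 4],[88,Int.negSucc 155,96,Int.negSucc 19],[Int.negSucc 77,96,Int.negSucc 29],[32,Int.negSucc 19],[Int.negSucc 4]],[[44,Int.negSucc 77,48,Int.negSucc 9],[Int.negSucc 77,96,Int.negSucc 29],[48,Int.negSucc 29],[Int.negSucc 9]],[[Int.negSucc 25,32,Int.negSucc 9],[32,Int.negSucc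 19],[Int.negSucc 9]],[[8,Int.negSucc 4],[Int.negSucc 4]],[[Int.negSucc 0]]],[[[Int.negSucc 40,88,Int.negSucc 77,32,Int.negSucc 4],[88,Int.negSucc 155,96,Int.negSucc 19],[Int.negSucc 77,96,Int.negSucc 29],[32,Int.negSucc 19],[Int.negSucc 4]],[[88,Int.negSucc 155,96,Int.negSucc 19],[Int.negSucc 155,192,Int.negSucc 59],[96,Int.negSucc 59],[Int.negSucc 19]],[[Int.negSucc 77,96,Int.negSucc 29],[96,Int.negSucc 59],[Int.negSucc 29]],[[32,Int.negSucc 19],[Int.negSucc 19]],[[Int.negSucc 4]]],[[[44,Int.negSucc 77,48,Int.negSucc 9],[Int.negSucc 77,96,Int.negSucc 29],[48,Int.negSucc 29],[Int.negSucc 9]],[[Int.negSucc 77,96,Int.negSucc 29],[96,Int.negSucc 59],[Int.negSucc 29]],[[48,Int.negSucc 29],[Int.negSucc 29]],[[Int.negSucc 9]]],[[[Int.negSucc 25,32,Int.negSucc 9],[32,Int.negSucc 19],[Int.negSucc 9]],[[32,Int.negSucc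 19],[Int.negSucc 19]],[[Int.negSucc 9]]],[[[8,Int.negSucc 4],[Int.negSucc 4]],[[Int.negSucc 4]]],[[[Int.negSucc 0]]]]

theorem x4R1N_ev (u0 u1 u2 u3 : ℝ) : ev4 u0 u1 u2 u3 x4R1N = ev1 (ev4 u0 u1 u2 u3 x4Zt) x4R1 := by
  rw [ev4_eq_of_zr u0 u1 u2 u3 x4R1N (ax4 (4) x4ZP0 (ax4 (Int.negSucc 3) x4ZP1 (ax4 (4) x4ZP2 (ax4 (Int.negSucc 3) x4ZP3 (ax4 (3) x4ZP4 (ax4 (Int.negSucc 0) x4ZP5 [])))))) (by decide +kernel)]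
  simp only [ev4_ax, ev4_nil, x4ZP0_ev, x4ZP1_ev, x4ZP2_ev, x4ZP3_ev, x4ZP4_ev, x4ZP5_ev, x4R1, ev1, evL]
  push_cast
  ring

def x4E2 : P4 := [[[[],[0,1]],[[0,1],[1]]],[[[0,1],[1]],[[1]]]]

theorem x4E2_ev (u0 u1 u2 u3 : ℝ) : ev4 u0 u1 u2 u3 x4E2 = (u0 * u1 + u0 * u2 + u0 * u3 + u1 * u2 + u1 * u3 + u2 * u3) := by
  simp only [x4E2, ev4, ev3, ev2, ev1, evL]
  push_cast
  ring

theorem x4_idb (u0 u1 u2 u3 : ℝ) :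
    sm 7 x4Ld (120 * u0) (120 * u1) (120 * u2) (120 * u3) 48 =
      (14265760717209600000000) * ((u0 * u1 + u0 * u2 + u0 * u3 + u1 * u2 + u1 * u3 + u2 * u3) * ev1 (u0 + u1 + u2 + u3 - 1) x4R1) := by
  have h := ev4_smM u0 u1 u2 u3 7 120 48 x4Ld
  push_cast at h
  rw [← h, ← ev4_eq_of_zr u0 u1 u2 u3 (ax4 (14265760717209600000000) (mul4 x4E2 x4R1N) []) (smM 7 120 48 x4Ld) (by decide +kernel)]
  simp only [ev4_ax, ev4_mul, ev4_nil, ev4_lin, x4E2_ev, x4R1N_ev, x4Zt_ev]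
  push_cast
  ring

end Vale.Agent.P154
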